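import Vale.Agent.P197.Staircase.Partition

/-!
# Padding beta sets

`chi` does not change when a zero part is appended.
-/

open Finset Equiv

namespace Vale.Agent.P197.SymChar

variable {α : Type*} [Fintype α] [DecidableEq α] {N : ℕ}

/-- Append a zero part to a beta set. -/
def pad (a : Fin N → ℤ) : Fin (N + 1) → ℤ := Fin.snoc (fun i => a i + 1) 0

lemma eps_pad (a : Fin N → ℤ) (c : Fin (N + 1) → ℕ) :
    eps (pad a) c = if c (Fin.last N) = 0 then eps a (c ∘ Fin.castSucc) else 0 := by
  classical
  have key : ∀ w : Perm (Fin (N + 1)), (∀ j, pad a (w j) = c j + delta (N + 1) j) →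
      w (Fin.last N) = Fin.last N ∧ c (Fin.last N) = 0 := by
    intro w hw
    have h1 := hw (w.symm (Fin.last N))
    rw [Equiv.apply_symm_apply, pad, Fin.snoc_last] at h1
    simp only [delta] at h1
    have hlt := (w.symm (Fin.last N)).isLt
    have hj : w.symm (Fin.last N) = Fin.last N := Fin.ext (by simp only [Fin.val_last]; omega)
    rw [hj] at h1
    simp only [Fin.val_last] at h1
    exact ⟨(Equiv.symm_apply_eq w).mp hj |>.symm, by omega⟩
  let ext : Perm (Fin N) → Perm (Fin (N + 1)) := fun w =>
    finSumFinEquiv.permCongr (Perm.sumCongr w (1 : Perm (Fin 1)))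
  have hext : ∀ w i, ext w (Fin.castSucc i) = Fin.castSucc (w i) := fun w i => by
    show finSumFinEquiv _ = _
    rw [show (Fin.castSucc i : Fin (N + 1)) = finSumFinEquiv (Sum.inl i) from rfl,
      Equiv.trans_apply, Equiv.symm_apply_apply]
    rfl
  have hlast : ∀ w, ext w (Fin.last N) = Fin.last N := fun w => by
    show finSumFinEquiv _ = _
    rw [show Fin.last N = finSumFinEquiv (Sum.inr (0 : Fin 1)) from rfl, Equiv.trans_apply,
      Equiv.symm_apply_apply]
    rfl
  have hsign : ∀ w, Perm.sign (ext w) = Perm.sign w := fun w => by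
    simp [ext, Perm.sign_permCongr, Perm.sign_sumCongr]
  have hcond : ∀ w, (∀ j, pad a (ext w j) = c j + delta (N + 1) j) ↔
      (c (Fin.last N) = 0 ∧ ∀ i, a (w i) = (c ∘ Fin.castSucc) i + delta N i) := by
    intro w
    rw [Fin.forall_fin_succ']
    simp only [hext, hlast, pad, Fin.snoc_castSucc, Fin.snoc_last, delta, Fin.val_castSucc,
      Fin.val_last, Function.comp_apply]
    constructor
    · rintro ⟨h1, h2⟩
      exact ⟨by omega, fun i => by have := h1 i; push_cast at this ⊢; omega⟩
    · rintro ⟨h1, h2⟩
      exact ⟨fun i => by have := h2 i; push_cast at this ⊢; omega, by push_cast; omega⟩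
  split_ifs with hc
  swap
  · refine sum_eq_zero fun w _ => ?_
    rw [if_neg (fun h => hc (key w h).2), mul_zero]
  unfold eps
  symm
  refine Finset.sum_bij_ne_zero (fun w _ _ => ext w) (fun w _ _ => mem_univ _) ?_ ?_ ?_
  · intro w _ _ w' _ _ h
    ext i
    have := congrArg (fun π : Perm (Fin (N + 1)) => π (Fin.castSucc i)) h
    simp only [hext] at this
    exact congrArg Fin.val (Fin.castSucc_injective _ this)
  · intro W _ hW
    have hWc : ∀ j, pad a (W j) = c j + delta (N + 1) j := by
      by_contra h
      rw [if_neg h, mul_zero] at hW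
      exact hW rfl
    obtain ⟨⟨w, z⟩, hwz⟩ : finSumFinEquiv.symm.permCongr W ∈
        (Perm.sumCongrHom (Fin N) (Fin 1)).range := by
      refine Perm.mem_sumCongrHom_range_of_perm_mapsTo_inl ?_
      rintro _ ⟨i, rfl⟩
      refine ⟨⟨(W (finSumFinEquiv (Sum.inl i))).1, ?_⟩, ?_⟩
      · refine Fin.val_lt_last fun h => ?_
        have h1 := W.injective (h.trans (key W hWc).1.symm)
        exact absurd (congrArg Fin.val h1) (by simp; omega)
      · rw [Equiv.permCongr_apply, Equiv.symm_symm, eq_comm, Equiv.symm_apply_eq]
        exact Fin.ext rfl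
    have hW' : ext w = W := by
      have h1 : Perm.sumCongr w (1 : Perm (Fin 1)) = finSumFinEquiv.symm.permCongr W := by
        rw [← hwz, Subsingleton.elim (1 : Perm (Fin 1)) z]
        rfl
      refine Equiv.ext fun x => ?_
      show finSumFinEquiv (Perm.sumCongr w 1 (finSumFinEquiv.symm x)) = _
      rw [h1]
      simp [Equiv.permCongr_apply]
    refine ⟨w, mem_univ _, ?_, hW'⟩
    subst hW'
    rw [if_pos ((hcond w).mp hWc).2]
    simp
  · intro w _ hw
    have hwc : ∀ i, a (w i) = (c ∘ Fin.castSucc) i + delta N i := by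
      by_contra h
      rw [if_neg h, mul_zero] at hw
      exact hw rfl
    rw [if_pos ((hcond w).mpr ⟨hc, hwc⟩), if_pos hwc, hsign]

/-- Appending a zero part does not change the character. -/
theorem chi_pad (a : Fin N → ℤ) (π : Perm α) : chi (pad a) π = chi a π := by
  classical
  unfold chi
  simp only [eps_pad a]
  rw [← sum_filter]
  symm
  refine Finset.sum_bij (fun g _ => Fin.castSucc ∘ g) ?_ ?_ ?_ ?_
  · intro g hg
    simp only [mem_filter, mem_fixedCol] at hg ⊢
    exact ⟨by rw [Function.comp_assoc, hg], by simp [cnt]⟩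
  · intro g _ g' _ h
    funext x
    exact Fin.castSucc_injective _ (congrFun h x)
  · intro h hh
    simp only [mem_filter, mem_fixedCol] at hh
    have hne : ∀ x, (h x).1 < N := fun x => Fin.val_lt_last fun e => by
      have := hh.2
      rw [cnt, card_eq_zero, filter_eq_empty_iff] at this
      exact this (mem_univ x) e
    refine ⟨fun x => ⟨(h x).1, hne x⟩, ?_, funext fun x => Fin.ext rfl⟩
    rw [mem_fixedCol]
    funext x
    exact Fin.ext (congrArg Fin.val (congrFun hh.1 x) :)
  · intro g _
    congr 1
    funext j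
    simp [cnt]

end Vale.Agent.P197.SymChar

namespace Vale.Agent.P197.Littlewood

open SymChar

/-- The character of a padded staircase. -/
theorem chi_stairBeta {α : Type*} [Fintype α] [DecidableEq α] (d : ℕ) (π : Perm α) :
    ∀ N, d ≤ N → chi (stairBeta N d) π = chi (stairBeta d d) π := by
  intro N
  induction N with
  | zero => intro h; obtain rfl : d = 0 := by omega
            rfl
  | succ N ih =>
    intro h
    rcases eq_or_lt_of_le h with h' | h'
    · subst h'; rfl
    have h1 : stairBeta (N + 1) d = pad (stairBeta N d) := by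
      funext i
      refine Fin.lastCases ?_ (fun i => ?_) i
      · simp only [stairBeta, pad, Fin.snoc_last, delta, Fin.val_last]; omega
      · simp only [stairBeta, pad, Fin.snoc_castSucc, delta, Fin.val_castSucc]; omega
    rw [h1, chi_pad, ih (by omega)]

lemma stairBeta_eq_beta (d : ℕ) : stairBeta (tri d) d = beta (staircase d) := by
  funext i
  simp [stairBeta, beta, row_staircase]

end Vale.Agent.P197.Littlewood
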