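import Vale.Agent.P197.Staircase
import Vale.Agent.P197.Littlewood

/-!
# Staircase partitions and 2-cores

The packed parity beta sets of `Littlewood` are staircases, so the core lattice is the Specht
lattice of a staircase.
-/

open Finset Equiv

namespace Vale.Agent.P197

open SymChar

/-- The triangular numbers. -/
def tri (m : ℕ) : ℕ := m * (m + 1) / 2

lemma two_mul_tri (m : ℕ) : 2 * tri m = m * (m + 1) :=
  Nat.two_mul_div_two_of_even (Nat.even_mul_succ_self m)

lemma le_tri (m : ℕ) : m ≤ tri m := by
  rcases Nat.eq_zero_or_pos m with rfl | h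
  · simp
  · have := two_mul_tri m
    nlinarith

lemma sum_range_succ_eq_tri (m : ℕ) : ∑ i ∈ range m, (i + 1) = tri m := by
  induction m with
  | zero => rfl
  | succ m ih =>
    rw [sum_range_succ, ih]
    have h1 := two_mul_tri m
    have h2 := two_mul_tri (m + 1)
    nlinarith

/-- The staircase `(m, m - 1, …, 1)`. -/
def staircase (m : ℕ) : (tri m).Partition where
  parts := (Multiset.range m).map (· + 1)
  parts_pos {i} h := by
    obtain ⟨j, -, rfl⟩ := Multiset.mem_map.mp h
    exact Nat.succ_pos _
  parts_sum := sum_range_succ_eq_tri m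

lemma row_staircase (m i : ℕ) : row (staircase m) i = m - i := by
  set l := (List.range m).map fun j => m - j
  have hsort : (staircase m).parts.sort (· ≥ ·) = l := by
    refine List.Perm.eq_of_pairwise (le := (· ≥ ·)) (fun a b _ _ h h' => le_antisymm h' h)
      (Multiset.pairwise_sort _ _) ?_ (Multiset.coe_eq_coe.mp ?_)
    · refine List.pairwise_map.mpr (List.pairwise_lt_range.imp fun {a b} h => ?_)
      show m - a ≥ m - b
      omega
    · rw [Multiset.sort_eq]
      refine Multiset.Nodup.ext ?_ ?_ |>.mpr fun a => ?_
      · exact (Multiset.nodup_range m).map (fun a b h => by simpa using h)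
      · refine (List.nodup_range.map_on fun a ha b hb h => ?_)
        simp only [List.mem_range] at ha hb
        omega
      · simp only [staircase, Multiset.mem_map, Multiset.mem_range, Multiset.mem_coe, l,
          List.mem_map, List.mem_range]
        constructor <;> rintro ⟨j, hj, rfl⟩
        · exact ⟨m - 1 - j, by omega, by omega⟩
        · exact ⟨m - 1 - j, by omega, by omega⟩
  simp only [row, hsort, l]
  rcases lt_or_ge i m with h | h
  · rw [List.getD_eq_getElem _ _ (by simpa using h)]
    simp
  · rw [List.getD_eq_default _ _ (by simpa using h)]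
    omega

namespace Littlewood

/-- Beta numbers of a staircase, padded to any length. -/
def stairBeta (N d : ℕ) (i : Fin N) : ℤ := (d - (i : ℕ) : ℕ) + delta N i

lemma stairBeta_injective (N d : ℕ) : Function.Injective (stairBeta N d) := by
  intro i j h
  simp only [stairBeta, delta] at h
  exact Fin.ext (by omega)

/-- The packed parity beta set is that of a staircase. -/
theorem exists_core {n₀ n₁ N f : ℕ} (e : Fin n₀ ⊕ Fin n₁ ≃ Fin N)
    (hf : ∑ i, join e (delta n₀) (delta n₁) i = ∑ i, delta N i + f) :
    ∃ (d : ℕ) (w : Perm (Fin N)), d ≤ N ∧ f = tri d ∧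
      join e (delta n₀) (delta n₁) = stairBeta N d ∘ w := by
  set a := join e (delta n₀) (delta n₁)
  have hN : n₀ + n₁ = N := by simpa using Fintype.card_congr e
  set d := if n₀ ≤ n₁ then n₁ - n₀ else n₀ - n₁ - 1 with hd
  have hdN : d ≤ N := by rw [hd]; split_ifs <;> omega
  have hmem : ∀ i, ∃ j, a i = stairBeta N d j := by
    intro i
    obtain ⟨x, rfl⟩ := e.surjective i
    simp only [a, join, Function.comp_apply, Equiv.symm_apply_apply]
    have key : ∀ v : ℕ, ((v < N - d) ∨ (N - d < v + 1 ∧ v < N + d ∧ (v + N + d + 1) % 2 = 0)) →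
        ∃ j, (v : ℤ) = stairBeta N d j := by
      intro v hv
      rcases hv with hv | ⟨h1, h2, h3⟩
      · exact ⟨⟨N - 1 - v, by omega⟩, by simp only [stairBeta, delta]; omega⟩
      · exact ⟨⟨(N + d - 1 - v) / 2, by omega⟩, by simp only [stairBeta, delta]; omega⟩
    cases x with
    | inl i =>
      have := i.isLt
      obtain ⟨j, hj⟩ := key (2 * (n₀ - 1 - i.1)) (by rw [hd]; split_ifs <;> omega)
      exact ⟨j, by rw [← hj]; simp only [Sum.elim_inl, delta]; omega⟩
    | inr i =>
      have := i.isLt
      obtain ⟨j, hj⟩ := key (2 * (n₁ - 1 - i.1) + 1) (by rw [hd]; split_ifs <;> omega)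
      exact ⟨j, by rw [← hj]; simp only [Sum.elim_inr, delta]; omega⟩
  choose w hw using hmem
  have hainj : Function.Injective a := by
    intro x y h
    obtain ⟨x, rfl⟩ := e.surjective x
    obtain ⟨y, rfl⟩ := e.surjective y
    cases x <;> cases y <;> simp [a, join, delta] at h <;>
      first
        | (exact congrArg e (by simp; exact Fin.ext (by omega)))
        | omega
  have hwinj : Function.Injective w := fun x y h => hainj (by rw [hw x, hw y, h])
  let wp : Perm (Fin N) := Equiv.ofBijective w ⟨hwinj, Finite.surjective_of_injective hwinj⟩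
  refine ⟨d, wp, hdN, ?_, funext hw⟩
  have h1 : ∑ i, a i = ∑ i, stairBeta N d i := by
    rw [← Equiv.sum_comp wp (stairBeta N d)]
    exact sum_congr rfl fun i _ => hw i
  simp only [stairBeta, sum_add_distrib] at h1
  rw [hf] at h1
  have h2 : ∑ i : Fin N, (d - (i : ℕ)) = tri d := by
    rw [Fin.sum_univ_eq_sum_range (fun i => d - i) N,
      ← sum_subset (range_subset_range.mpr hdN) (fun i _ hi => by simp only [mem_range] at hi; omega),
      ← sum_range_succ_eq_tri, ← Finset.sum_range_reflect]
    exact sum_congr rfl fun i hi => by simp only [mem_range] at hi; omega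
  have h3 : (∑ i : Fin N, ((d - (i : ℕ) : ℕ) : ℤ)) = tri d := by exact_mod_cast h2
  omega

end Littlewood

end Vale.Agent.P197
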